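import Mathlib
import Vale.Agent.P034.Core

/-!
P034, full answer, part 1: scale-specific boosts.

A position `x` of an edge, joining a trace at level `n`, may be boosted at `n` by an amount
depending on the scale `nu Y x` of `x` at the trace `Y` it joins. The composite over all levels
boosts every position by at most `16 d`.
-/

open Finset

namespace Vale.Agent.P034.Full

variable {X : Type*} [Fintype X] [DecidableEq X]

/-- The scale of `x` at `Y`: weight of the sets through `x` given `Y`, the rest at density `P`. -/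
noncomputable def nu (h : Finset X → ℝ) (P : ℝ) (Y : Finset X) (x : X) : ℝ :=
  ∑ S ∈ univ.filter (fun S : Finset X => x ∈ S), h S * P ^ #(S \ Y)

open Classical in
/-- Number of thresholds `eta j`, `j ≤ n`, not exceeding `v`. -/
noncomputable def cnt (η : ℕ → ℝ) (n : ℕ) (v : ℝ) : ℕ :=
  #((range (n + 1)).filter fun j => η j ≤ v)

/-- Total boost of a position of scale `v` over the levels up to `n`. -/
noncomputable def boost (η : ℕ → ℝ) (d : ℝ) (n : ℕ) (v : ℝ) : ℝ :=
  16 * d * (1 - (1 / 2) ^ cnt η n v)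

open Classical in
/-- Boost at level `n` of a position of scale `v`. -/
noncomputable def delta (η : ℕ → ℝ) (d : ℝ) (n : ℕ) (v : ℝ) : ℝ :=
  if η n ≤ v then 16 * d * (1 / 2) ^ cnt η n v else 0

variable {h : Finset X → ℝ} {P d : ℝ} {η : ℕ → ℝ}

lemma nu_mono (hh : ∀ S, 0 ≤ h S) (hP : 0 ≤ P) (hP1 : P ≤ 1) {Y Y' : Finset X} (hY : Y ⊆ Y')
    (x : X) : nu h P Y x ≤ nu h P Y' x :=
  sum_le_sum fun S _ => mul_le_mul_of_nonneg_left
    (pow_le_pow_of_le_one hP hP1 (card_le_card (sdiff_subset_sdiff le_rfl hY))) (hh S)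

lemma cnt_succ (n : ℕ) (v : ℝ) :
    cnt η (n + 1) v = cnt η n v + (if η (n + 1) ≤ v then 1 else 0) := by
  classical
  rw [cnt, cnt, card_filter, card_filter, sum_range_succ]

lemma delta_nonneg (hd : 0 ≤ d) (n : ℕ) (v : ℝ) : 0 ≤ delta η d n v := by
  rw [delta]; split_ifs
  · positivity
  · exact le_rfl

lemma boost_nonneg (hd : 0 ≤ d) (n : ℕ) (v : ℝ) : 0 ≤ boost η d n v :=
  mul_nonneg (by positivity) (sub_nonneg.2 (pow_le_one₀ (by norm_num) (by norm_num)))

lemma boost_le (hd : 0 ≤ d) (n : ℕ) (v : ℝ) : boost η d n v ≤ 16 * d :=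
  mul_le_of_le_one_right (by positivity) (sub_le_self _ (by positivity))

lemma boost_succ (n : ℕ) (v : ℝ) :
    boost η d (n + 1) v = boost η d n v + delta η d (n + 1) v := by
  rw [boost, boost, delta]
  split_ifs with hv
  · rw [cnt_succ, if_pos hv, pow_succ]; ring
  · rw [cnt_succ, if_neg hv, add_zero, add_zero]

lemma boost_mono (hd : 0 ≤ d) (n : ℕ) {v v' : ℝ} (hv : v ≤ v') :
    boost η d n v ≤ boost η d n v' := by
  classical
  refine mul_le_mul_of_nonneg_left (sub_le_sub_left ?_ _) (by positivity)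
  exact pow_le_pow_of_le_one (by norm_num) (by norm_num)
    (card_le_card fun j hj => by
      simp only [mem_filter] at hj ⊢
      exact ⟨hj.1, hj.2.trans hv⟩)

/-- One transition from trace `Z` to trace `Y` at level `n`. -/
noncomputable def trans (h : Finset X → ℝ) (P : ℝ) (η : ℕ → ℝ) (d : ℝ) (n : ℕ)
    (Z Y : Finset X) : ℝ :=
  if Z ⊆ Y then ∏ x ∈ Y \ Z, delta η d n (nu h P Y x) else 0

/-- The composite of the transitions at levels `k + 1`, ..., `k + n`. -/
noncomputable def ker (h : Finset X → ℝ) (P : ℝ) (η : ℕ → ℝ) (d : ℝ) (k : ℕ) :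
    ℕ → Finset X → Finset X → ℝ
  | 0, A, Y => if A = Y then 1 else 0
  | n + 1, A, Y => ∑ Z ∈ Y.powerset, ker h P η d k n A Z * trans h P η d (k + n + 1) Z Y

lemma trans_nonneg (hd : 0 ≤ d) (n : ℕ) (Z Y : Finset X) : 0 ≤ trans h P η d n Z Y := by
  rw [trans]; split_ifs
  · exact prod_nonneg fun x _ => delta_nonneg hd _ _
  · exact le_rfl

lemma trans_self (n : ℕ) (A : Finset X) : trans h P η d n A A = 1 := by
  simp [trans]

lemma ker_nonneg (hd : 0 ≤ d) (k : ℕ) : ∀ n A Y, 0 ≤ ker h P η d k n A Y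
  | 0, A, Y => by rw [ker]; split_ifs <;> norm_num
  | n + 1, A, Y =>
    sum_nonneg fun Z _ => mul_nonneg (ker_nonneg hd k n A Z) (trans_nonneg hd _ _ _)

lemma ker_eq_zero {A Y : Finset X} (hAY : ¬ A ⊆ Y) (k : ℕ) :
    ∀ n, ker h P η d k n A Y = 0 := by
  intro n
  induction n generalizing Y with
  | zero => rw [ker, if_neg]; rintro rfl; exact hAY Subset.rfl
  | succ n ih =>
    refine sum_eq_zero fun Z hZ => ?_
    rw [ih fun hAZ => hAY (hAZ.trans (mem_powerset.1 hZ)), zero_mul]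

/-- Sums over the traces between `A` and `Y`. -/
lemma sum_between {A Y : Finset X} (hAY : A ⊆ Y) (f : Finset X → ℝ)
    (hf : ∀ Z, ¬ A ⊆ Z → f Z = 0) :
    ∑ Z ∈ Y.powerset, f Z = ∑ B ∈ (Y \ A).powerset, f (A ∪ B) := by
  rw [← sum_filter_of_ne (p := fun Z => A ⊆ Z) fun Z _ hZ => not_not.1 fun h' => hZ (hf Z h')]
  refine sum_nbij' (fun Z => Z \ A) (fun B => A ∪ B) (fun Z hZ => ?_) (fun B hB => ?_)
    (fun Z hZ => ?_) (fun B hB => ?_) (fun Z hZ => ?_)
  · simp only [mem_coe, mem_filter, mem_powerset] at hZ ⊢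
    exact sdiff_subset_sdiff hZ.1 le_rfl
  · simp only [mem_coe, mem_filter, mem_powerset] at hB ⊢
    exact ⟨union_subset hAY (hB.trans sdiff_subset), subset_union_left⟩
  · exact union_sdiff_of_subset (mem_filter.1 hZ).2
  · simp only [mem_coe, mem_powerset] at hB
    exact union_sdiff_cancel_left (disjoint_sdiff.mono_right hB)
  · rw [union_sdiff_of_subset (mem_filter.1 hZ).2]

/-- All levels together boost each position by at most `boost`. -/
lemma ker_le (hh : ∀ S, 0 ≤ h S) (hP : 0 ≤ P) (hP1 : P ≤ 1) (hd : 0 ≤ d) (k : ℕ) :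
    ∀ n A Y, A ⊆ Y → ker h P η d k n A Y ≤ ∏ x ∈ Y \ A, boost η d (k + n) (nu h P Y x) := by
  intro n
  induction n with
  | zero =>
    intro A Y _
    rw [ker]
    split_ifs with hA
    · simp [hA]
    · exact prod_nonneg fun x _ => boost_nonneg hd _ _
  | succ n ih =>
    intro A Y hAY
    rw [ker, sum_between hAY _ fun Z hZ => by rw [ker_eq_zero hZ, zero_mul]]
    simp only [← add_assoc, boost_succ, prod_add]
    refine sum_le_sum fun B hB => ?_
    rw [mem_powerset] at hB
    have hBY : A ∪ B ⊆ Y := union_subset hAY (hB.trans sdiff_subset)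
    have e1 : (A ∪ B) \ A = B := union_sdiff_cancel_left (disjoint_sdiff.mono_right hB)
    have e2 : Y \ (A ∪ B) = (Y \ A) \ B := by ext; simp; tauto
    refine mul_le_mul ((ih A (A ∪ B) subset_union_left).trans ?_) (le_of_eq ?_)
      (trans_nonneg hd _ _ _) (prod_nonneg fun x _ => boost_nonneg hd _ _)
    · rw [e1]
      exact prod_le_prod (fun x _ => boost_nonneg hd _ _)
        fun x _ => boost_mono hd _ (nu_mono hh hP hP1 hBY x)
    · rw [trans, if_pos hBY, e2]

/-- The first level can be split off. -/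
lemma ker_succ (k : ℕ) : ∀ n A Y, ker h P η d k (n + 1) A Y =
    ∑ Z ∈ Y.powerset, trans h P η d (k + 1) A Z * ker h P η d (k + 1) n Z Y := by
  intro n
  induction n with
  | zero =>
    intro A Y
    simp only [ker, add_zero, ite_mul, one_mul, zero_mul, mul_ite, mul_one, mul_zero,
      sum_ite_eq, sum_ite_eq', mem_powerset, Subset.rfl, if_true]
    split_ifs with hA
    · rfl
    · rw [trans, if_neg hA]
  | succ n ih =>
    intro A Y
    rw [ker]
    simp only [ih, sum_mul]
    simp only [ker, mul_sum]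
    rw [sum_comm (s := Y.powerset) (t := Y.powerset)]
    refine sum_congr rfl fun W hW => ?_
    rw [show k + (n + 1) + 1 = k + 1 + n + 1 by ring]
    refine (sum_subset_zero_on_sdiff (powerset_mono.2 (mem_powerset.1 hW)) (fun Z hZ => ?_)
      fun Z _ => by ring).trans rfl
    simp only [mem_sdiff, mem_powerset] at hZ
    rw [ker_eq_zero hZ.2, zero_mul, mul_zero]

/-- Weight of an edge `S` with trace `A` at level `k`, the top level being `R`. -/
noncomputable def wt (h : Finset X → ℝ) (P : ℝ) (η : ℕ → ℝ) (d : ℝ) (R k : ℕ)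
    (S A : Finset X) : ℝ :=
  ∑ Y ∈ S.powerset, ker h P η d k (R - k) A Y * d ^ #(S \ Y)

lemma wt_nonneg (hd : 0 ≤ d) (R k : ℕ) (S A : Finset X) : 0 ≤ wt h P η d R k S A :=
  sum_nonneg fun Y _ => mul_nonneg (ker_nonneg hd _ _ _ _) (pow_nonneg hd _)

lemma wt_step {R k : ℕ} (hk : k < R) (S A : Finset X) : wt h P η d R k S A =
    ∑ Z ∈ S.powerset, trans h P η d (k + 1) A Z * wt h P η d R (k + 1) S Z := by
  simp only [wt, mul_sum]
  rw [show R - k = R - (k + 1) + 1 by omega, sum_comm]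
  refine sum_congr rfl fun Y hY => ?_
  rw [ker_succ, sum_mul]
  refine (sum_subset (powerset_mono.2 (mem_powerset.1 hY)) fun Z _ hZ => ?_).trans
    (sum_congr rfl fun Z _ => by ring)
  rw [mem_powerset] at hZ
  rw [ker_eq_zero hZ, mul_zero, zero_mul]

lemma wt_self {R k : ℕ} (hk : R ≤ k) {S A : Finset X} (hA : A ⊆ S) :
    wt h P η d R k S A = d ^ #(S \ A) := by
  rw [wt, Nat.sub_eq_zero_of_le hk]
  simp [ker, hA]

lemma wt_anti (hd : 0 ≤ d) {R k : ℕ} (hk : k < R) {S A : Finset X} (hA : A ⊆ S) :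
    wt h P η d R (k + 1) S A ≤ wt h P η d R k S A := by
  rw [wt_step hk]
  refine le_trans (le_of_eq ?_) (single_le_sum
    (fun Z _ => mul_nonneg (trans_nonneg hd _ _ _) (wt_nonneg hd _ _ _ _)) (mem_powerset.2 hA))
  rw [trans_self, one_mul]

lemma le_wt (hd : 0 ≤ d) (R k : ℕ) {S A : Finset X} (hA : A ⊆ S) :
    d ^ #(S \ A) ≤ wt h P η d R k S A := by
  induction hn : R - k generalizing k with
  | zero => rw [wt_self (by omega) hA]
  | succ n ih => exact (ih (k + 1) (by omega)).trans (wt_anti hd (by omega) hA)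

lemma wt_le (hh : ∀ S, 0 ≤ h S) (hP : 0 ≤ P) (hP1 : P ≤ 1) (hd : 0 ≤ d) (R k : ℕ)
    {S A : Finset X} (hA : A ⊆ S) : wt h P η d R k S A ≤ (17 * d) ^ #(S \ A) := by
  rw [wt, sum_between hA _ fun Z hZ => by rw [ker_eq_zero hZ, zero_mul],
    show 17 * d = 16 * d + d by ring, ← sum_pow_mul_eq_add_pow]
  refine sum_le_sum fun B hB => ?_
  rw [mem_powerset] at hB
  have hBS : A ∪ B ⊆ S := union_subset hA (hB.trans sdiff_subset)
  have e1 : (A ∪ B) \ A = B := union_sdiff_cancel_left (disjoint_sdiff.mono_right hB)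
  have e2 : #(S \ (A ∪ B)) = #(S \ A) - #B := by
    rw [← card_sdiff_of_subset hB]; congr 1; ext; simp; tauto
  rw [e2]
  refine mul_le_mul_of_nonneg_right ((ker_le hh hP hP1 hd k _ A _ subset_union_left).trans ?_)
    (pow_nonneg hd _)
  rw [e1]
  exact (prod_le_prod (fun x _ => boost_nonneg hd _ _) fun x _ => boost_le hd _ _).trans_eq
    (prod_const _)

/-- The state functional at level `k`. -/
noncomputable def phi (h : Finset X → ℝ) (P : ℝ) (η : ℕ → ℝ) (d : ℝ) (R k : ℕ)
    (W : Finset X) : ℝ :=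
  ∑ S, h S * wt h P η d R k S (S ∩ W)

lemma phi_top (R : ℕ) (W : Finset X) : phi h P η d R R W = psi h d W :=
  sum_congr rfl fun S _ => by rw [wt_self le_rfl inter_subset_left, sdiff_inter_self_left]

lemma psi_le_phi (hh : ∀ S, 0 ≤ h S) (hd : 0 ≤ d) (R k : ℕ) (W : Finset X) :
    psi h d W ≤ phi h P η d R k W :=
  sum_le_sum fun S _ => mul_le_mul_of_nonneg_left
    ((le_of_eq (by rw [sdiff_inter_self_left])).trans (le_wt hd R k inter_subset_left)) (hh S)

lemma phi_le_psi (hh : ∀ S, 0 ≤ h S) (hP : 0 ≤ P) (hP1 : P ≤ 1) (hd : 0 ≤ d) (R k : ℕ)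
    (W : Finset X) : phi h P η d R k W ≤ psi h (17 * d) W :=
  sum_le_sum fun S _ => mul_le_mul_of_nonneg_left
    ((wt_le hh hP hP1 hd R k inter_subset_left).trans_eq (by rw [sdiff_inter_self_left])) (hh S)

lemma phi_anti (hh : ∀ S, 0 ≤ h S) (hd : 0 ≤ d) {R k : ℕ} (hk : k < R) (W : Finset X) :
    phi h P η d R (k + 1) W ≤ phi h P η d R k W :=
  sum_le_sum fun S _ => mul_le_mul_of_nonneg_left (wt_anti hd hk inter_subset_left) (hh S)

/-- The outgoing weight of `W` at level `k` is exactly `phi` at level `k`. -/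
lemma phi_step {R k : ℕ} (hk : k < R) (W : Finset X) : phi h P η d R k W =
    ∑ S, ∑ B ∈ (S \ W).powerset, h S * wt h P η d R (k + 1) S (S ∩ W ∪ B) *
      trans h P η d (k + 1) (S ∩ W) (S ∩ W ∪ B) := by
  refine sum_congr rfl fun S _ => ?_
  rw [wt_step hk, sum_between inter_subset_left _
    (fun Z hZ => by rw [trans, if_neg hZ, zero_mul]), mul_sum, sdiff_inter_self_left]
  exact sum_congr rfl fun B _ => by ring

end Vale.Agent.P034.Full
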