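import Mathlib
import Vale.Agent.P034.Full.Kernel

/-!
P034, full answer, part 2: generation of unions of sampled traces with trace-dependent weights,
its cost and its mass inside a core.
-/

open Finset

namespace Vale.Agent.P034.Full

variable {X : Type*} [Fintype X] [DecidableEq X]

open Classical in
/-- The weight of the step from `W` that adds `B` through the edge `S`. -/
noncomputable def step (h : Finset X → ℝ) (w : Finset X → Finset X → ℝ)
    (good : Finset X → X → Prop) (S W B : Finset X) : ℝ :=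
  if ∀ x ∈ B, good (S ∩ W ∪ B) x then h S * w S (S ∩ W ∪ B) else 0

open Classical in
/-- Weight with which `T` is produced from `W` by at most `k` steps, stopping at the first set
with property `stop` and continuing only from sets with property `ok`. -/
noncomputable def gen (h : Finset X → ℝ) (w : Finset X → Finset X → ℝ)
    (good : Finset X → X → Prop) (θ : ℝ) (ok stop : Finset X → Prop) :
    ℕ → Finset X → Finset X → ℝ
  | 0, W, T => if stop W ∧ T = W then 1 else 0
  | k + 1, W, T =>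
    if stop W then (if T = W then 1 else 0)
    else if ok W then
      ∑ S, ∑ B ∈ (S \ W).powerset, step h w good S W B / θ * gen h w good θ ok stop k (W ∪ B) T
    else 0

section gen

variable {h : Finset X → ℝ} {w : Finset X → Finset X → ℝ} {good : Finset X → X → Prop}
  {θ : ℝ} {ok stop : Finset X → Prop}

lemma step_nonneg (hh : ∀ S, 0 ≤ h S) (hw : ∀ S A, 0 ≤ w S A) (S W B : Finset X) :
    0 ≤ step h w good S W B := by
  rw [step]; split_ifs
  · exact mul_nonneg (hh S) (hw S _)
  · exact le_rfl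

lemma gen_nonneg (hh : ∀ S, 0 ≤ h S) (hw : ∀ S A, 0 ≤ w S A) (hθ : 0 < θ) :
    ∀ k W T, 0 ≤ gen h w good θ ok stop k W T := by
  intro k
  induction k with
  | zero => intro W T; rw [gen]; split_ifs <;> norm_num
  | succ k ih =>
    intro W T
    rw [gen]
    split_ifs <;> try norm_num
    exact sum_nonneg fun S _ => sum_nonneg fun B _ =>
      mul_nonneg (div_nonneg (step_nonneg hh hw S W B) hθ.le) (ih _ _)

lemma gen_eq_zero {T : Finset X} (hT : ¬ stop T) : ∀ k W, gen h w good θ ok stop k W T = 0 := by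
  intro k
  induction k with
  | zero =>
    intro W
    rw [gen, if_neg]
    rintro ⟨hW, rfl⟩
    exact hT hW
  | succ k ih =>
    intro W
    rw [gen]
    split_ifs with h1 h2 h3
    · exact absurd (h2 ▸ h1) hT
    · rfl
    · simp [ih]
    · rfl

/-- Cost of the produced sets, measured against a potential `pot`. -/
lemma gen_cost (hh : ∀ S, 0 ≤ h S) (hw : ∀ S A, 0 ≤ w S A) (hθ : 0 < θ) {f pot : Finset X → ℝ}
    (hpot : ∀ W, 0 ≤ pot W) (hstop : ∀ W, stop W → f W ≤ pot W) {ρ : ℝ} (hρ : 0 ≤ ρ)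
    (b : Finset X → Finset X → Finset X → ℝ)
    (hstep : ∀ W, ¬ stop W → ok W → ∀ S, ∀ B ∈ (S \ W).powerset,
      step h w good S W B * pot (W ∪ B) ≤ b S W B * pot W)
    (hb : ∀ W, ¬ stop W → ok W → ∑ S, ∑ B ∈ (S \ W).powerset, b S W B ≤ ρ * θ) :
    ∀ k W, ∑ T, gen h w good θ ok stop k W T * f T ≤ pot W * ∑ j ∈ range (k + 1), ρ ^ j ∧
      (¬ stop W →
        ∑ T, gen h w good θ ok stop k W T * f T ≤ pot W * (ρ * ∑ j ∈ range k, ρ ^ j)) := by
  intro k
  have hgeom : ∀ n, 0 ≤ ∑ j ∈ range n, ρ ^ j := fun n => sum_nonneg fun j _ => pow_nonneg hρ j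
  induction k with
  | zero =>
    intro W
    by_cases hs : stop W
    · simp [gen, hs, hstop W hs]
    · simp [gen, hs, hpot W]
  | succ k ih =>
    intro W
    have main : ¬ stop W → ∑ T, gen h w good θ ok stop (k + 1) W T * f T ≤
        pot W * (ρ * ∑ j ∈ range (k + 1), ρ ^ j) := by
      intro hs
      by_cases hok : ok W
      · simp only [gen, if_neg hs, if_pos hok, sum_mul]
        rw [sum_comm]
        have key : ∀ S, ∑ T, ∑ B ∈ (S \ W).powerset,
              step h w good S W B / θ * gen h w good θ ok stop k (W ∪ B) T * f T ≤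
            (∑ B ∈ (S \ W).powerset, b S W B) * (pot W / θ * ∑ j ∈ range (k + 1), ρ ^ j) := by
          intro S
          rw [sum_comm, sum_mul]
          refine sum_le_sum fun B hB => ?_
          simp only [mul_assoc, ← mul_sum]
          refine (mul_le_mul_of_nonneg_left (ih (W ∪ B)).1
            (div_nonneg (step_nonneg hh hw S W B) hθ.le)).trans ?_
          have := mul_le_mul_of_nonneg_right (div_le_div_of_nonneg_right
            (hstep W hs hok S B hB) hθ.le) (hgeom (k + 1))
          calc step h w good S W B / θ * (pot (W ∪ B) * ∑ j ∈ range (k + 1), ρ ^ j)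
              = step h w good S W B * pot (W ∪ B) / θ * ∑ j ∈ range (k + 1), ρ ^ j := by ring
            _ ≤ _ := this
            _ = _ := by ring
        refine (sum_le_sum fun S _ => key S).trans ?_
        rw [← sum_mul]
        refine (mul_le_mul_of_nonneg_right (hb W hs hok)
          (mul_nonneg (div_nonneg (hpot W) hθ.le) (hgeom _))).trans (le_of_eq ?_)
        field_simp
      · simp [gen, hs, hok, mul_nonneg (hpot W) (mul_nonneg hρ (hgeom _))]
    refine ⟨?_, main⟩
    by_cases hs : stop W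
    · simp only [gen, if_pos hs, ite_mul, one_mul, zero_mul, sum_ite_eq', mem_univ, if_true]
      refine (hstop W hs).trans (le_mul_of_one_le_right (hpot W) ?_)
      rw [sum_range_succ', pow_zero]
      exact le_add_of_nonneg_left (sum_nonneg fun j _ => pow_nonneg hρ _)
    · refine (main hs).trans (mul_le_mul_of_nonneg_left ?_ (hpot W))
      rw [mul_sum, sum_range_succ' _ (k + 1), pow_zero]
      refine le_add_of_le_of_nonneg (le_of_eq (sum_congr rfl fun j _ => by ring)) zero_le_one

/-- Unions of sampled traces of a well-spread set stay inside it and reach `stop`, up to the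
weight `β` of the traces that are not allowed. -/
lemma gen_mass (hh : ∀ S, 0 ≤ h S) (hw : ∀ S A, 0 ≤ w S A) (hθ : 0 < θ) {V : Finset X} {l β : ℝ}
    (hl : l ≤ 1) (hβ : 0 ≤ β) (hV : θ ≤ ∑ S, h S * w S (S ∩ V)) (hstopV : stop V)
    (hok : ∀ W ⊆ V, ¬ stop W → ok W)
    (hinf : ∀ x ∈ V, ∑ S, h S * w S (S ∩ V.erase x) ≤ (1 - l) * ∑ S, h S * w S (S ∩ V))
    (hbad : ∀ 𝒮 : Finset (Finset X), (∀ S ∈ 𝒮, ∃ x ∈ S ∩ V, ¬ good (S ∩ V) x) →
      ∑ S ∈ 𝒮, h S * w S (S ∩ V) ≤ β * ∑ S, h S * w S (S ∩ V)) :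
    ∀ k : ℕ, ∀ W ⊆ V, 1 - (#(V \ W) : ℝ) * (1 - l) ^ k - (k : ℝ) * β ≤
      ∑ T ∈ V.powerset, gen h w good θ ok stop k W T := by
  intro k
  have hstop1 : ∀ (k : ℕ) W, W ⊆ V → stop W → 1 - (#(V \ W) : ℝ) * (1 - l) ^ k - (k : ℝ) * β ≤
      ∑ T ∈ V.powerset, gen h w good θ ok stop k W T := by
    intro k W hW hs
    have : ∑ T ∈ V.powerset, gen h w good θ ok stop k W T = 1 := by
      cases k <;> simp [gen, hs, hW]
    rw [this]
    have : 0 ≤ (#(V \ W) : ℝ) * (1 - l) ^ k :=
      mul_nonneg (Nat.cast_nonneg _) (pow_nonneg (by linarith) _)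
    have : 0 ≤ (k : ℝ) * β := mul_nonneg (Nat.cast_nonneg _) hβ
    linarith
  induction k with
  | zero =>
    intro W hW
    by_cases hs : stop W
    · exact hstop1 0 W hW hs
    · have hne : W ≠ V := fun e => hs (e ▸ hstopV)
      have : (1 : ℝ) ≤ #(V \ W) := by
        exact_mod_cast card_pos.2 (sdiff_nonempty.2 fun hVW => hne (hW.antisymm hVW))
      have h0 := sum_nonneg (s := V.powerset) fun T _ =>
        gen_nonneg (good := good) (ok := ok) (stop := stop) hh hw hθ 0 W T
      simp only [pow_zero, mul_one, Nat.cast_zero, zero_mul, sub_zero]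
      linarith
  | succ k ih =>
    intro W hW
    by_cases hs : stop W
    · exact hstop1 (k + 1) W hW hs
    classical
    set Z := ∑ S, h S * w S (S ∩ V) with hZdef
    have hZ : 0 < Z := hθ.trans_le hV
    simp only [gen, if_neg hs, if_pos (hok W hW hs)]
    rw [sum_comm]
    set p : Finset X → ℝ := fun S => h S * w S (S ∩ V) / Z
    have hp : ∀ S, 0 ≤ p S := fun S => div_nonneg (mul_nonneg (hh S) (hw S _)) hZ.le
    set r : Finset X → ℝ := fun S => 1 - (#((V \ W) \ S) : ℝ) * (1 - l) ^ k - (k : ℝ) * β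
    set isBad : Finset X → Prop := fun S => ∃ x ∈ S ∩ V, ¬ good (S ∩ V) x
    have key : ∀ S : Finset X, p S * r S - (if isBad S then p S else 0) ≤
        ∑ T ∈ V.powerset, ∑ B ∈ (S \ W).powerset,
          step h w good S W B / θ * gen h w good θ ok stop k (W ∪ B) T := by
      intro S
      have hr : r S ≤ 1 := by
        have : 0 ≤ (#((V \ W) \ S) : ℝ) * (1 - l) ^ k :=
          mul_nonneg (Nat.cast_nonneg _) (pow_nonneg (by linarith) _)
        have : 0 ≤ (k : ℝ) * β := mul_nonneg (Nat.cast_nonneg _) hβ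
        simp only [r]; linarith
      have hnn : ∀ B, 0 ≤ ∑ T ∈ V.powerset,
          step h w good S W B / θ * gen h w good θ ok stop k (W ∪ B) T := fun B =>
        sum_nonneg fun T _ => mul_nonneg (div_nonneg (step_nonneg hh hw S W B) hθ.le)
          (gen_nonneg hh hw hθ _ _ _)
      rw [sum_comm]
      by_cases hb : isBad S
      · rw [if_pos hb]
        have := mul_le_mul_of_nonneg_left hr (hp S)
        have := sum_nonneg (s := (S \ W).powerset) fun B _ => hnn B
        linarith
      rw [if_neg hb, sub_zero]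
      have hB : (S ∩ V) \ W ∈ (S \ W).powerset :=
        mem_powerset.2 (sdiff_subset_sdiff inter_subset_left le_rfl)
      refine le_trans ?_ (single_le_sum (fun B _ => hnn B) hB)
      rw [← mul_sum]
      have htr : S ∩ W ∪ (S ∩ V) \ W = S ∩ V := by
        ext x
        simp only [mem_union, mem_inter, mem_sdiff]
        constructor
        · rintro (⟨h1, h2⟩ | ⟨h1, -⟩)
          · exact ⟨h1, hW h2⟩
          · exact h1
        · intro h1; by_cases h2 : x ∈ W
          · exact Or.inl ⟨h1.1, h2⟩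
          · exact Or.inr ⟨h1, h2⟩
      have hstep : step h w good S W ((S ∩ V) \ W) = h S * w S (S ∩ V) := by
        rw [step, htr, if_pos]
        intro x hx
        by_contra hg
        exact hb ⟨x, (mem_sdiff.1 hx).1, hg⟩
      rw [hstep]
      have hsub : W ∪ (S ∩ V) \ W ⊆ V :=
        union_subset hW (sdiff_subset.trans inter_subset_right)
      have hih := ih _ hsub
      have hset : V \ (W ∪ (S ∩ V) \ W) = (V \ W) \ S := by
        ext x
        simp only [mem_sdiff, mem_union, mem_inter]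
        tauto
      rw [hset] at hih
      have hM : 0 ≤ ∑ T ∈ V.powerset, gen h w good θ ok stop k (W ∪ (S ∩ V) \ W) T :=
        sum_nonneg fun T _ => gen_nonneg hh hw hθ _ _ _
      exact (mul_le_mul_of_nonneg_left hih (hp S)).trans (mul_le_mul_of_nonneg_right
        (div_le_div_of_nonneg_left (mul_nonneg (hh S) (hw S _)) hθ hV) hM)
    refine le_trans ?_ (sum_le_sum fun S _ => key S)
    have hP : ∑ S, p S = 1 := by
      simp only [p, ← sum_div, ← hZdef, div_self hZ.ne']
    have hbad' : ∑ S, (if isBad S then p S else 0) ≤ β := by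
      rw [← sum_filter]
      simp only [p, ← sum_div]
      exact (div_le_iff₀ hZ).2 (hbad _ fun S hS => (mem_filter.1 hS).2)
    have hmiss : ∑ S : Finset X, p S * (#((V \ W) \ S) : ℝ) ≤ (#(V \ W) : ℝ) * (1 - l) := by
      have e : ∀ S : Finset X, (#((V \ W) \ S) : ℝ) = ∑ x ∈ V \ W, if x ∉ S then 1 else 0 := by
        intro S
        rw [sdiff_eq_filter, sum_boole]
      simp only [e, mul_sum]
      rw [sum_comm]
      refine (sum_le_card_nsmul _ _ (1 - l) fun x hx => ?_).trans_eq (nsmul_eq_mul _ _)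
      have hxV := (mem_sdiff.1 hx).1
      refine le_trans (le_of_le_of_eq ?_ (sum_div univ _ Z).symm)
        ((div_le_iff₀ hZ).2 (hinf x hxV))
      refine sum_le_sum fun S _ => ?_
      by_cases hxS : x ∈ S
      · simp only [hxS, not_true, if_false, mul_zero]
        exact div_nonneg (mul_nonneg (hh S) (hw S _)) hZ.le
      · have : S ∩ V.erase x = S ∩ V := by
          rw [inter_erase, erase_eq_of_notMem fun h' => hxS (mem_inter.1 h').1]
        simp [p, hxS, this]
    calc 1 - (#(V \ W) : ℝ) * (1 - l) ^ (k + 1) - ((k + 1 : ℕ) : ℝ) * β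
        ≤ 1 - (∑ S : Finset X, p S * (#((V \ W) \ S) : ℝ)) * (1 - l) ^ k -
            (k : ℝ) * β - ∑ S, (if isBad S then p S else 0) := by
          have := mul_le_mul_of_nonneg_right hmiss (pow_nonneg (by linarith : 0 ≤ 1 - l) k)
          push_cast
          rw [pow_succ]
          linarith
      _ = _ := by
          simp only [r, mul_sub, mul_one, sum_sub_distrib, ← mul_assoc, ← sum_mul, hP, one_mul]

end gen

open Classical in
/-- Well-spread minimal sets of a functional `F`. -/
noncomputable def cores (F : Finset X → ℝ) (u : ℕ) (θ : ℝ) : Finset (Finset X) :=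
  univ.filter fun V => #V ≤ u ∧ θ ≤ F V ∧ (∀ V' ⊂ V, F V' < θ) ∧
    ∀ x ∈ V, F (V.erase x) ≤ (1 - 1 / (u : ℝ) ^ 2) * θ

/-- The threshold chain ends in a core. -/
lemma exists_core {F : Finset X → ℝ} {θ : ℝ} {u : ℕ} (W : Finset X) (k : ℕ)
    (hW : #W + k ≤ u) (hθ : θ * (1 - 1 / (u : ℝ) ^ 2) ^ k ≤ F W) :
    ∃ j ≤ u, ∃ V ⊆ W, V ∈ cores F u (θ * (1 - 1 / (u : ℝ) ^ 2) ^ j) := by
  induction hn : #W using Nat.strong_induction_on generalizing W k with
  | _ n ih =>
    subst hn
    classical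
    set a := θ * (1 - 1 / (u : ℝ) ^ 2) ^ k with ha
    obtain ⟨V, hV, hmin⟩ := (W.powerset.filter fun V => a ≤ F V).exists_min_image
      (fun V => #V) ⟨W, mem_filter.2 ⟨mem_powerset_self W, hθ⟩⟩
    obtain ⟨hVW, haV⟩ := mem_filter.1 hV
    rw [mem_powerset] at hVW
    by_cases hx : ∀ x ∈ V, F (V.erase x) ≤ (1 - 1 / (u : ℝ) ^ 2) * a
    · refine ⟨k, by omega, V, hVW, ?_⟩
      simp only [cores, mem_filter, mem_univ, true_and]
      refine ⟨(card_le_card hVW).trans (by omega), haV, fun V' hV' => ?_, hx⟩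
      by_contra hc
      have := hmin V' (mem_filter.2 ⟨mem_powerset.2 (hV'.subset.trans hVW), not_lt.1 hc⟩)
      exact absurd (card_lt_card hV') (not_lt.2 this)
    · push Not at hx
      obtain ⟨x, hxV, hx⟩ := hx
      have hlt : #(V.erase x) < #W :=
        (card_erase_lt_of_mem hxV).trans_le (card_le_card hVW)
      obtain ⟨j, hj, V', hV', hc⟩ := ih _ hlt (V.erase x) (k + 1) (by omega)
        (by rw [pow_succ, ← mul_assoc, mul_comm]; exact hx.le) rfl
      exact ⟨j, hj, V', hV'.trans ((erase_subset _ _).trans hVW), hc⟩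

/-- A quarter of the produced mass lies inside a core. -/
lemma mass_quarter {h : Finset X → ℝ} {w : Finset X → Finset X → ℝ} {good : Finset X → X → Prop}
    (hh : ∀ S, 0 ≤ h S) (hw : ∀ S A, 0 ≤ w S A) {θ β : ℝ} (hθ : 0 < θ) (hβ : 0 ≤ β)
    {ok stop : Finset X → Prop} {u : ℕ} (hu : 1 ≤ u) (hβ' : ((2 * u ^ 3 : ℕ) : ℝ) * β ≤ 1 / 4)
    {F : Finset X → ℝ} (hF : ∀ V, F V = ∑ S, h S * w S (S ∩ V))
    {V : Finset X} (hV : V ∈ cores F u θ) (hstopV : stop V)
    (hok : ∀ W ⊆ V, ¬ stop W → ok W)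
    (hbad : ∀ 𝒮 : Finset (Finset X), (∀ S ∈ 𝒮, ∃ x ∈ S ∩ V, ¬ good (S ∩ V) x) →
      ∑ S ∈ 𝒮, h S * w S (S ∩ V) ≤ β * ∑ S, h S * w S (S ∩ V)) :
    1 / 4 ≤ ∑ T ∈ V.powerset, gen h w good θ ok stop (2 * u ^ 3) ∅ T := by
  simp only [cores, mem_filter, mem_univ, true_and] at hV
  obtain ⟨hcard, hθV, -, hx⟩ := hV
  have hu' : (1 : ℝ) ≤ u := by exact_mod_cast hu
  have hl : 1 / (u : ℝ) ^ 2 ≤ 1 := by
    rw [div_le_one (by positivity)]; nlinarith
  have hinf : ∀ x ∈ V, F (V.erase x) ≤ (1 - 1 / (u : ℝ) ^ 2) * F V := fun x hxV =>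
    (hx x hxV).trans (mul_le_mul_of_nonneg_left hθV (sub_nonneg.2 hl))
  simp only [hF] at hθV hinf
  have h1 := gen_mass (ok := ok) hh hw hθ hl hβ hθV hstopV hok hinf hbad (2 * u ^ 3) ∅
    (empty_subset _)
  rw [sdiff_empty] at h1
  refine le_trans ?_ h1
  set l := 1 / (u : ℝ) ^ 2 with hldef
  have hl0 : 0 ≤ l := by positivity
  have hb : (1 - l) ^ (2 * u ^ 3) * (1 + (2 * u ^ 3 : ℕ) * l) ≤ 1 := by
    calc (1 - l) ^ (2 * u ^ 3) * (1 + (2 * u ^ 3 : ℕ) * l)
        ≤ (1 - l) ^ (2 * u ^ 3) * (1 + l) ^ (2 * u ^ 3) :=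
          mul_le_mul_of_nonneg_left (one_add_mul_le_pow (by linarith) _)
            (pow_nonneg (by linarith) _)
      _ = ((1 - l) * (1 + l)) ^ (2 * u ^ 3) := (mul_pow _ _ _).symm
      _ ≤ 1 := pow_le_one₀ (mul_nonneg (by linarith) (by linarith)) (by nlinarith)
  have he : ((2 * u ^ 3 : ℕ) : ℝ) * l = 2 * u := by
    rw [hldef]; push_cast; field_simp
  rw [he] at hb
  have hp : 0 ≤ (1 - l) ^ (2 * u ^ 3) := pow_nonneg (by linarith) _
  have : (#V : ℝ) * (1 - l) ^ (2 * u ^ 3) ≤ u * (1 - l) ^ (2 * u ^ 3) :=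
    mul_le_mul_of_nonneg_right (by exact_mod_cast hcard) hp
  nlinarith

end Vale.Agent.P034.Full
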