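import Mathlib
import Vale.Agent.P034.Descent
import Vale.Agent.P034.Full.Cover

/-!
P034, full answer, part 3: the level sizes, one round, and the descent.
-/

open Finset

namespace Vale.Agent.P034.Full

/-- Witness size at level `k`. -/
def lvl (t : ℕ) : ℕ → ℕ
  | 0 => 512 * t
  | k + 1 => 2 ^ (lvl t k / 16)

/-- Scale threshold at level `k`. -/
noncomputable def eta (t k : ℕ) : ℝ := (1 / 2) ^ (4 * lvl t k)

lemma big_pow {L : ℕ} (hL : 32 ≤ L) : 4096 * L ≤ 2 ^ L := by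
  induction L, hL using Nat.le_induction with
  | base => norm_num
  | succ n hn ih => rw [pow_succ]; omega

lemma lvl_grow {a : ℕ} (ha : 512 ≤ a) : 128 * a ≤ 2 ^ (a / 16) :=
  le_trans (by omega) (big_pow (show 32 ≤ a / 16 by omega))

lemma lvl_facts {t : ℕ} (ht : 1 ≤ t) :
    ∀ k, 512 * t ≤ lvl t k ∧ k ≤ lvl t k ∧ 128 * lvl t k ≤ lvl t (k + 1) := by
  intro k
  induction k with
  | zero => exact ⟨le_rfl, Nat.zero_le _, lvl_grow (show 512 ≤ 512 * t by omega)⟩
  | succ n ih =>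
    obtain ⟨h1, h2, h3⟩ := ih
    exact ⟨by omega, by omega, lvl_grow (show 512 ≤ lvl t (n + 1) by omega)⟩

lemma lvl_mono {t : ℕ} (ht : 1 ≤ t) : Monotone (lvl t) :=
  monotone_nat_of_le_succ fun k => by have := (lvl_facts ht k).2.2; omega

lemma eta_anti {t : ℕ} (ht : 1 ≤ t) : Antitone (eta t) := fun _ _ hab =>
  pow_le_pow_of_le_one (by norm_num) (by norm_num) (Nat.mul_le_mul_left 4 (lvl_mono ht hab))

/-- Bound on the number of heavy elements of a prefix at level `k + 1`. -/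
def heavyMax (t k : ℕ) : ℕ := if 2 ≤ k then 2 ^ (12 * t + 4 * lvl t (k - 2)) else 0

lemma heavy_budget {t : ℕ} (ht : 1 ≤ t) (k : ℕ) : k * (heavyMax t k + 2 * t) ≤ lvl t k := by
  obtain ⟨h1, h2, -⟩ := lvl_facts ht k
  rw [heavyMax]
  split_ifs with hk
  · obtain ⟨j, rfl⟩ : ∃ j, k = j + 2 := ⟨k - 2, by omega⟩
    obtain ⟨j1, j2, j3⟩ := lvl_facts ht j
    rw [Nat.add_sub_cancel, show lvl t (j + 2) = 2 ^ (lvl t (j + 1) / 16) from rfl]
    set a := lvl t j
    have e1 : j + 2 ≤ 2 ^ a := (show j + 2 ≤ 2 * a by omega).trans (by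
      have := Nat.lt_two_pow_self (n := a - 1)
      have e : 2 ^ a = 2 * 2 ^ (a - 1) := by rw [← pow_succ']; congr 1; omega
      omega)
    have e2 : 2 ^ (12 * t + 4 * a) + 2 * t ≤ 2 ^ (6 * a) := by
      have : 2 * t ≤ 2 ^ (12 * t + 4 * a) :=
        (Nat.lt_two_pow_self (n := 2 * t)).le.trans (Nat.pow_le_pow_right two_pos (by omega))
      have h' : 2 ^ (12 * t + 4 * a + 1) ≤ 2 ^ (6 * a) := Nat.pow_le_pow_right two_pos (by omega)
      rw [pow_succ] at h'
      omega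
    calc (j + 2) * (2 ^ (12 * t + 4 * a) + 2 * t) ≤ 2 ^ a * 2 ^ (6 * a) := Nat.mul_le_mul e1 e2
      _ = 2 ^ (7 * a) := by rw [← pow_add]; congr 1; ring
      _ ≤ _ := Nat.pow_le_pow_right two_pos (by omega)
  · rcases (show k = 0 ∨ k = 1 by omega) with rfl | rfl <;> omega

variable {X : Type*} [Fintype X] [DecidableEq X] {h : Finset X → ℝ} {d P : ℝ} {t : ℕ}

lemma psi_scale (hh : ∀ S, 0 ≤ h S) {D : ℕ} (hD : ∀ S, h S ≠ 0 → #S ≤ D) {C q q' : ℝ}
    (hC : 1 ≤ C) (hq : 0 ≤ q) (hq' : 0 ≤ q') (hqq : q' ≤ C * q) (W : Finset X) :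
    psi h q' W ≤ C ^ D * psi h q W := by
  rw [psi, psi, mul_sum]
  refine sum_le_sum fun S _ => ?_
  rcases eq_or_ne (h S) 0 with hS | hS
  · simp [hS]
  have hc : #(S \ W) ≤ D := (card_le_card sdiff_subset).trans (hD S hS)
  calc h S * q' ^ #(S \ W) ≤ h S * (C ^ #(S \ W) * q ^ #(S \ W)) := by
        rw [← mul_pow]; exact mul_le_mul_of_nonneg_left (pow_le_pow_left₀ hq' hqq _) (hh S)
    _ ≤ h S * (C ^ D * q ^ #(S \ W)) :=
        mul_le_mul_of_nonneg_left
          (mul_le_mul_of_nonneg_right (pow_le_pow_right₀ hC hc) (pow_nonneg hq _)) (hh S)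
    _ = C ^ D * (h S * q ^ #(S \ W)) := by ring

lemma wt_pow_le (hh : ∀ S, 0 ≤ h S) (hd : 0 ≤ d) (hdP : 18 * d ≤ P) (hP1 : P ≤ 1) (η : ℕ → ℝ)
    (R k : ℕ) {S A : Finset X} (hA : A ⊆ S) : wt h P η d R k S A ≤ P ^ #(S \ A) :=
  (wt_le hh (by linarith) hP1 hd R k hA).trans
    (pow_le_pow_left₀ (by linarith) (by linarith) _)

/-- Few cores at one level. -/
lemma cores_weight (hh : ∀ S, 0 ≤ h S) (hD : ∀ S, h S ≠ 0 → #S ≤ 2 * t) (hd : 0 ≤ d)
    (hdP : P = 18 * d) (hP1 : P ≤ 1) {η : ℕ → ℝ} (R k : ℕ) {θ : ℝ} (hθ : 0 < θ) {u : ℕ}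
    (hu : 1 ≤ u) :
    ∑ V ∈ cores (phi h P η d R k) u θ, d ^ #V ≤
      4 * ∑ j ∈ range (2 * u ^ 3 + 1), ((64 : ℝ) ^ (2 * t)) ^ j := by
  set w := wt h P η d R k
  set ok := fun W => phi h P η d R k W ≤ θ
  set 𝒱 := cores (phi h P η d R k) u θ
  have hw : ∀ S A, 0 ≤ w S A := wt_nonneg hd R k
  have key : ∀ V ∈ 𝒱, 1 / 4 ≤ gen h w (fun _ _ => True) θ ok (· ∈ 𝒱) (2 * u ^ 3) ∅ V := by
    intro V hV
    have hlt : ∀ W ⊂ V, phi h P η d R k W < θ := (mem_filter.1 hV).2.2.2.1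
    have hp : ∀ W ⊂ V, W ∉ 𝒱 := fun W hW hWc =>
      not_lt.2 (mem_filter.1 hWc).2.2.1 (hlt W hW)
    refine (mass_quarter (β := 0) (good := fun _ _ => True) (ok := ok) (stop := (· ∈ 𝒱)) hh hw hθ le_rfl hu
      (by norm_num) (fun _ => rfl) hV hV (fun W hW hs => ?_) (fun 𝒮 hS => ?_)).trans (le_of_eq ?_)
    · exact (hlt W (hW.ssubset_of_ne fun e => hs (e ▸ hV))).le
    · rw [sum_eq_zero fun S hSS => ?_, zero_mul]
      obtain ⟨x, -, hx⟩ := hS S hSS
      exact absurd trivial hx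
    · refine sum_eq_single_of_mem V (mem_powerset_self V) fun T hT hne => ?_
      exact gen_eq_zero (hp T ((mem_powerset.1 hT).ssubset_of_ne hne)) _ _
  have hP0 : 0 ≤ P := by rw [hdP]; linarith
  have hc := (gen_cost (good := fun _ _ => True) (ok := ok) (stop := (· ∈ 𝒱)) hh hw hθ
    (f := fun T => d ^ #T) (pot := fun T => d ^ #T) (fun W => pow_nonneg hd _) (fun W _ => le_rfl)
    (ρ := (64 : ℝ) ^ (2 * t)) (by positivity) (fun S W _ => h S * P ^ #(S \ W))
    (fun W _ _ S B hB => ?_) (fun W _ hok => ?_) (2 * u ^ 3) ∅).1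
  · simp only [card_empty, pow_zero, one_mul] at hc
    refine le_trans ?_ (mul_le_mul_of_nonneg_left hc (by norm_num))
    refine le_trans ?_ (mul_le_mul_of_nonneg_left (sum_le_sum_of_subset_of_nonneg
      (subset_univ 𝒱) fun T _ _ =>
        mul_nonneg (gen_nonneg hh hw hθ _ _ _) (pow_nonneg hd _)) (by norm_num))
    rw [mul_sum]
    refine sum_le_sum fun V hV => ?_
    have := mul_le_mul_of_nonneg_right (key V hV) (pow_nonneg hd #V)
    linarith
  · rw [mem_powerset] at hB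
    rw [step, if_pos fun _ _ => trivial, card_union_of_disjoint (disjoint_sdiff.mono_right hB),
      pow_add]
    have hA : S ∩ W ∪ B ⊆ S := union_subset inter_subset_left (hB.trans sdiff_subset)
    have e : #(S \ W) = #(S \ (S ∩ W ∪ B)) + #B := by
      rw [show S \ (S ∩ W ∪ B) = (S \ W) \ B by ext; simp; tauto, card_sdiff_add_card_eq_card hB]
    calc h S * w S (S ∩ W ∪ B) * (d ^ #W * d ^ #B)
        ≤ h S * P ^ #(S \ (S ∩ W ∪ B)) * (d ^ #W * P ^ #B) := by
          refine mul_le_mul (mul_le_mul_of_nonneg_left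
            (wt_pow_le hh hd (hdP ▸ le_rfl) hP1 η R k hA) (hh S)) ?_
            (mul_nonneg (pow_nonneg hd _) (pow_nonneg hd _))
            (mul_nonneg (hh S) (pow_nonneg hP0 _))
          exact mul_le_mul_of_nonneg_left (pow_le_pow_left₀ hd (by linarith) _) (pow_nonneg hd _)
      _ = h S * P ^ #(S \ W) * d ^ #W := by rw [e, pow_add]; ring
  · have hsum : ∑ S, ∑ _B ∈ (S \ W).powerset, h S * P ^ #(S \ W) = psi h (2 * P) W :=
      sum_congr rfl fun S _ => by
        rw [sum_const, card_powerset, nsmul_eq_mul, mul_pow]; push_cast; ring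
    rw [hsum]
    refine (psi_scale hh hD (C := 64) (q := d) (by norm_num) hd (by linarith) (by linarith) W).trans
      (mul_le_mul_of_nonneg_left ?_ (by positivity))
    exact (psi_le_phi hh hd R k W).trans hok

open Classical in
/-- Elements of `W` that are heavy for level `k + 1`. -/
noncomputable def heavy (h : Finset X → ℝ) (P : ℝ) (t k : ℕ) (W : Finset X) : Finset X :=
  W.filter fun x => 2 ≤ k ∧ eta t (k - 2) ≤ nu h P W x

/-- Prefixes with small weight have few heavy elements. -/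
lemma card_heavy_le (hh : ∀ S, 0 ≤ h S) (hD : ∀ S, h S ≠ 0 → #S ≤ 2 * t) (ht : 1 ≤ t)
    (hd : 0 ≤ d) (hdP : P = 18 * d) (k : ℕ) {W : Finset X} (hW : psi h d W ≤ 1) :
    #(heavy h P t k W) ≤ heavyMax t k := by
  classical
  rw [heavyMax]
  split_ifs with hk
  swap
  · simp [heavy, hk]
  have hP0 : 0 ≤ P := by rw [hdP]; linarith
  have hpsi : psi h P W ≤ 32 ^ (2 * t) :=
    (psi_scale hh hD (C := 32) (by norm_num) hd hP0 (by linarith) W).trans
      (mul_le_of_le_one_right (by positivity) hW)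
  have hsum : ∑ x ∈ W, nu h P W x ≤ (2 * t : ℕ) * psi h P W := by
    simp only [nu, sum_filter]
    rw [sum_comm, psi, mul_sum]
    refine sum_le_sum fun S _ => ?_
    rcases eq_or_ne (h S) 0 with hS | hS
    · simp [hS]
    rw [← sum_filter, sum_const, nsmul_eq_mul]
    refine mul_le_mul_of_nonneg_right ?_ (mul_nonneg (hh S) (pow_nonneg hP0 _))
    exact_mod_cast (card_le_card fun x hx => (mem_filter.1 hx).2).trans (hD S hS)
  have h1 : (#(heavy h P t k W) : ℝ) * eta t (k - 2) ≤ ∑ x ∈ W, nu h P W x := by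
    rw [← nsmul_eq_mul]
    refine (card_nsmul_le_sum _ _ _ fun x hx => (mem_filter.1 hx).2.2).trans ?_
    exact sum_le_sum_of_subset_of_nonneg (filter_subset _ _) fun x _ _ =>
      sum_nonneg fun S _ => mul_nonneg (hh S) (pow_nonneg hP0 _)
  have h2 : (#(heavy h P t k W) : ℝ) * eta t (k - 2) ≤ 2 ^ (12 * t) := by
    refine (h1.trans (hsum.trans (mul_le_mul_of_nonneg_left hpsi (Nat.cast_nonneg _)))).trans ?_
    rw [show (32 : ℝ) = 2 ^ 5 by norm_num, ← pow_mul]
    refine (mul_le_mul_of_nonneg_right (b := ((2 * t : ℕ) : ℝ)) (c := (2 : ℝ) ^ (2 * t)) ?_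
      (by positivity)).trans (le_of_eq ?_)
    · exact_mod_cast (Nat.lt_two_pow_self).le
    · rw [← pow_add]; ring_nf
  rw [eta, one_div_pow, mul_one_div, div_le_iff₀ (by positivity), ← pow_add] at h2
  exact_mod_cast h2

open Classical in
/-- A cheap cover of the cores of one level. -/
lemma level (hh : ∀ S, 0 ≤ h S) (hD : ∀ S, h S ≠ 0 → #S ≤ 2 * t) (ht : 1 ≤ t) (hd : 0 ≤ d)
    (hdP : P = 18 * d) (hP1 : P ≤ 1) {R k : ℕ} (hk : k < R) {θ ρ : ℝ} (hθ : 1 / 8 ≤ θ)
    (hθ1 : θ ≤ 1) (hρ0 : 0 ≤ ρ) (hρ1 : ρ ≤ 1) :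
    ∃ 𝒢 : Finset (Finset X), ∅ ∉ 𝒢 ∧
      cost (d / 4) 𝒢 ≤ 65 * (lvl t (k + 1) : ℝ) ^ 7 * (1 / 2) ^ lvl t k ∧
      ∀ V ∈ cores (phi h P (eta t) d R (k + 1)) (lvl t (k + 1)) θ, lvl t k < #V →
        (∀ W ⊆ V, #W ≤ lvl t k → phi h P (eta t) d R k W ≤ ρ * θ) → ∃ T ∈ 𝒢, T ⊆ V := by
  obtain ⟨hk1, -, hk3⟩ := lvl_facts ht k
  set u := lvl t (k + 1) with hu
  set s := lvl t k + 1 with hs
  have hu1 : 1 ≤ u := by omega
  have hθ0 : 0 < θ := by linarith
  set K := 2 * u ^ 3 with hK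
  set N := (12 * t + 2) * (K + 1) + lvl t k with hN
  have hP0 : 0 ≤ P := by rw [hdP]; linarith
  have hd4 : 0 ≤ d / 4 := by linarith
  set η := eta t
  set w := wt h P η d R (k + 1)
  have hw : ∀ S A, 0 ≤ w S A := wt_nonneg hd R (k + 1)
  set good : Finset X → X → Prop := fun Y x => η (k + 1) ≤ nu h P Y x
  set ok := fun W => phi h P η d R k W ≤ ρ * θ
  set stop := fun W : Finset X => s ≤ #W
  set G := gen h w good θ ok stop K ∅
  set 𝒱 := (cores (phi h P η d R (k + 1)) u θ).filter fun V =>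
    s ≤ #V ∧ ∀ W ⊆ V, #W < s → phi h P η d R k W ≤ ρ * θ
  set C := univ.filter fun T : Finset X => s ≤ #T
  have hG : ∀ T, 0 ≤ G T := gen_nonneg hh hw hθ0 K ∅
  set cap := heavyMax t k + 2 * t with hcap
  set pot : Finset X → ℝ := fun W =>
    (d / 4) ^ #W * (1 / 4) ^ (s - #W) * (2 ^ k) ^ (cap - #(heavy h P t k W))
  have hstep : ∀ W, ¬ stop W → ok W → ∀ S, ∀ B ∈ (S \ W).powerset,
      step h w good S W B * pot (W ∪ B) ≤
        (h S * w S (S ∩ W ∪ B) * trans h P η d (k + 1) (S ∩ W) (S ∩ W ∪ B)) * pot W := by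
    intro W _ hok' S B hB
    rw [mem_powerset] at hB
    have hrhs : 0 ≤ (h S * w S (S ∩ W ∪ B) * trans h P η d (k + 1) (S ∩ W) (S ∩ W ∪ B)) * pot W :=
      mul_nonneg (mul_nonneg (mul_nonneg (hh S) (hw S _)) (trans_nonneg hd _ _ _))
        (mul_nonneg (mul_nonneg (pow_nonneg hd4 _) (by positivity)) (by positivity))
    rw [step]
    split_ifs with hg
    swap
    · rwa [zero_mul]
    rcases eq_or_ne (h S) 0 with hS | hS
    · rw [hS, zero_mul, zero_mul, zero_mul, zero_mul]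
    set Y := S ∩ W ∪ B with hY
    have hWB : Disjoint W B := disjoint_sdiff.mono_right hB
    set Bh := B.filter fun x => 2 ≤ k ∧ η (k - 2) ≤ nu h P Y x with hBh
    have hdelta : ∀ x ∈ B, d / 4 ≤
        delta η d (k + 1) (nu h P Y x) * ((1 / 4) * if x ∈ Bh then 2 ^ k else 1) := by
      intro x hx
      rw [delta, if_pos (hg x hx)]
      by_cases hxh : x ∈ Bh
      · rw [if_pos hxh]
        have hc : cnt η (k + 1) (nu h P Y x) ≤ k + 2 :=
          (card_filter_le _ _).trans (card_range _).le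
        refine le_trans ?_ (mul_le_mul_of_nonneg_right (mul_le_mul_of_nonneg_left
          (pow_le_pow_of_le_one (by norm_num) (by norm_num) hc) (by positivity)) (by positivity))
        rw [show 16 * d * (1 / 2) ^ (k + 2) * (1 / 4 * 2 ^ k) =
          d * ((1 / 2) ^ k * 2 ^ k) by ring, ← mul_pow]
        norm_num
        linarith
      · rw [if_neg hxh]
        have hc : cnt η (k + 1) (nu h P Y x) ≤ 3 := by
          rw [cnt]
          rcases lt_or_ge k 2 with hk2 | hk2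
          · exact (card_filter_le _ _).trans ((card_range _).le.trans (by omega))
          · refine (card_le_card (t := Icc (k - 1) (k + 1)) fun j hj => ?_).trans
              (by simp; omega)
            simp only [mem_filter, mem_range] at hj
            rw [mem_Icc]
            refine ⟨?_, by omega⟩
            by_contra hlt
            refine hxh (mem_filter.2 ⟨hx, hk2, ?_⟩)
            exact (eta_anti ht (show j ≤ k - 2 by omega)).trans hj.2
        refine le_trans ?_ (mul_le_mul_of_nonneg_right (mul_le_mul_of_nonneg_left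
          (pow_le_pow_of_le_one (by norm_num) (by norm_num) hc) (by positivity)) (by norm_num))
        norm_num
        linarith
    have hprod : (d / 4) ^ #B ≤
        trans h P η d (k + 1) (S ∩ W) Y * ((1 / 4) ^ #B * (2 ^ k) ^ #Bh) := by
      have e : Y \ (S ∩ W) = B := by
        rw [hY]
        exact union_sdiff_cancel_left (hWB.mono_left inter_subset_right)
      have e2 : ∏ x ∈ B, ((1 : ℝ) / 4 * if x ∈ Bh then 2 ^ k else 1) =
          (1 / 4) ^ #B * (2 ^ k) ^ #Bh := by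
        rw [prod_mul_distrib, prod_const, prod_ite_mem, inter_eq_right.2 (filter_subset _ _),
          prod_const]
      rw [trans, if_pos subset_union_left, e, ← e2, ← prod_mul_distrib, ← prod_const]
      exact prod_le_prod (fun _ _ => hd4) hdelta
    have hheavy : #Bh + (cap - #(heavy h P t k (W ∪ B))) ≤ cap - #(heavy h P t k W) := by
      have hsub : heavy h P t k W ∪ Bh ⊆ heavy h P t k (W ∪ B) := by
        intro x hx
        simp only [heavy, hBh, mem_union, mem_filter] at hx ⊢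
        rcases hx with ⟨h1, h2, h3⟩ | ⟨h1, h2, h3⟩
        · exact ⟨Or.inl h1, h2, h3.trans (nu_mono hh hP0 hP1 subset_union_left x)⟩
        · exact ⟨Or.inr h1, h2, h3.trans (nu_mono hh hP0 hP1
            (union_subset_union_left inter_subset_right) x)⟩
      have hdis : Disjoint (heavy h P t k W) Bh :=
        hWB.mono (filter_subset _ _) (filter_subset _ _)
      have h1 := card_le_card hsub
      rw [card_union_of_disjoint hdis] at h1
      have h2 : #Bh ≤ 2 * t :=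
        (card_le_card ((filter_subset _ _).trans (hB.trans sdiff_subset))).trans (hD S hS)
      have h3 : #(heavy h P t k W) ≤ heavyMax t k := card_heavy_le hh hD ht hd hdP k
        (((psi_le_phi hh hd R k W).trans hok').trans (mul_le_one₀ hρ1 hθ0.le hθ1))
      omega
    calc h S * w S Y * pot (W ∪ B)
        = h S * w S Y * ((d / 4) ^ #B * ((d / 4) ^ #W * (1 / 4) ^ (s - #(W ∪ B)) *
            (2 ^ k) ^ (cap - #(heavy h P t k (W ∪ B))))) := by
          simp only [pot]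
          rw [card_union_of_disjoint hWB, pow_add]
          ring
      _ ≤ h S * w S Y * (trans h P η d (k + 1) (S ∩ W) Y * ((1 / 4) ^ #B * (2 ^ k) ^ #Bh) *
            ((d / 4) ^ #W * (1 / 4) ^ (s - #(W ∪ B)) *
              (2 ^ k) ^ (cap - #(heavy h P t k (W ∪ B))))) := by
          refine mul_le_mul_of_nonneg_left (mul_le_mul_of_nonneg_right hprod ?_)
            (mul_nonneg (hh S) (hw S _))
          exact mul_nonneg (mul_nonneg (pow_nonneg hd4 _) (by positivity)) (by positivity)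
      _ = h S * w S Y * trans h P η d (k + 1) (S ∩ W) Y * ((d / 4) ^ #W *
            (1 / 4) ^ (#B + (s - #(W ∪ B))) *
              (2 ^ k) ^ (#Bh + (cap - #(heavy h P t k (W ∪ B))))) := by
          rw [pow_add, pow_add]; ring
      _ ≤ _ := by
          refine mul_le_mul_of_nonneg_left ?_
            (mul_nonneg (mul_nonneg (hh S) (hw S _)) (trans_nonneg hd _ _ _))
          refine mul_le_mul (mul_le_mul_of_nonneg_left
            (pow_le_pow_of_le_one (by norm_num) (by norm_num) ?_) (pow_nonneg hd4 _))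
            (pow_le_pow_right₀ (one_le_pow₀ one_le_two) hheavy) (by positivity)
            (mul_nonneg (pow_nonneg hd4 _) (by positivity))
          rw [card_union_of_disjoint hWB]
          omega
  have hGc : ∑ T, G T * (d / 4) ^ #T ≤ (1 / 2) ^ lvl t k * (2 * (u : ℝ) ^ 3) := by
    have hc := (gen_cost (good := good) (ok := ok) (stop := stop) hh hw hθ0
      (f := fun T => (d / 4) ^ #T) (pot := pot)
      (fun W => mul_nonneg (mul_nonneg (pow_nonneg hd4 _) (by positivity)) (by positivity))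
      (fun W hW => ?_) hρ0 _ hstep (fun W _ hok' => ?_) K ∅).2 (by simp [stop, hs])
    · refine hc.trans ?_
      have hp : pot ∅ ≤ (1 / 2) ^ lvl t k := by
        simp only [pot, card_empty, pow_zero, one_mul, Nat.sub_zero]
        rw [← pow_mul, show (1 : ℝ) / 4 = (1 / 2) ^ 2 by norm_num, ← pow_mul]
        have hb : k * (cap - #(heavy h P t k (∅ : Finset X))) ≤ lvl t k :=
          (Nat.mul_le_mul_left k (Nat.sub_le _ _)).trans (heavy_budget ht k)
        calc ((1 : ℝ) / 2) ^ (2 * s) * 2 ^ (k * (cap - #(heavy h P t k (∅ : Finset X))))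
            ≤ (1 / 2) ^ (2 * lvl t k) * 2 ^ lvl t k :=
              mul_le_mul (pow_le_pow_of_le_one (by norm_num) (by norm_num) (by omega))
                (pow_le_pow_right₀ one_le_two hb) (by positivity) (by positivity)
          _ = (1 / 2) ^ lvl t k := by
              rw [two_mul, pow_add, mul_assoc, ← mul_pow]; norm_num
      refine mul_le_mul hp ?_ (mul_nonneg hρ0 (sum_nonneg fun j _ => pow_nonneg hρ0 j))
        (by positivity)
      calc ρ * ∑ j ∈ range K, ρ ^ j ≤ 1 * ∑ j ∈ range K, (1 : ℝ) :=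
            mul_le_mul hρ1 (sum_le_sum fun j _ => pow_le_one₀ hρ0 hρ1)
              (sum_nonneg fun j _ => pow_nonneg hρ0 j) zero_le_one
        _ = 2 * (u : ℝ) ^ 3 := by simp [hK]
    · simp only [pot, Nat.sub_eq_zero_of_le hW, pow_zero, mul_one]
      exact le_mul_of_one_le_right (pow_nonneg hd4 _) (one_le_pow₀ (one_le_pow₀ one_le_two))
    · exact (phi_step hk W).symm.trans_le hok'
  obtain ⟨S, hS, hcost⟩ := exists_rounding C G (fun T => (d / 4) ^ #T) hG
    (fun T => pow_nonneg hd4 _) (L := 8 * (N : ℝ)) (by positivity) 𝒱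
  refine ⟨S ∪ 𝒱.filter (fun V => ∀ T ∈ S, ¬ T ⊆ V), ?_, ?_, fun V hV hsV hok' => ?_⟩
  · simp only [mem_union, mem_filter, not_or]
    refine ⟨fun hE => ?_, fun hE => ?_⟩
    · have := (mem_filter.1 (hS hE)).2
      simp [hs] at this
    · have := (mem_filter.1 hE.1).2.1
      simp [hs] at this
  · refine le_trans ?_ (le_trans hcost ?_)
    · rw [cost]
      refine le_trans (le_add_of_nonneg_right
        (sum_nonneg (s := S ∩ 𝒱.filter (fun V => ∀ T ∈ S, ¬ T ⊆ V))
          fun T _ => pow_nonneg hd4 #T)) (le_of_eq sum_union_inter)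
    have hm : ∀ V ∈ 𝒱, 1 / 4 ≤ ∑ T ∈ C.filter (· ⊆ V), G T := by
      intro V hV
      obtain ⟨hVc, hsV, hok'⟩ := mem_filter.1 hV
      have hVc' := (mem_filter.1 hVc).2
      refine (mass_quarter (β := 8 * 2 ^ u * η (k + 1)) (good := good) (ok := ok) (stop := stop)
        hh hw hθ0 (mul_nonneg (by positivity) (pow_nonneg (by norm_num) _)) hu1 ?_ (fun _ => rfl)
        hVc hsV (fun W hW hW' => hok' W hW (not_le.1 hW')) (fun 𝒮 hbad => ?_)).trans (le_of_eq ?_)
      · have e : η (k + 1) = (1 / 2) ^ (4 * u) := rfl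
        have h6 : 64 * u ^ 3 ≤ 2 ^ (3 * u) := by
          have hu3 : 4 * u ≤ 2 ^ u := (Nat.mul_le_mul_right u (by norm_num)).trans
            (big_pow (show 32 ≤ u by omega))
          calc 64 * u ^ 3 = (4 * u) ^ 3 := by ring
            _ ≤ (2 ^ u) ^ 3 := Nat.pow_le_pow_left hu3 3
            _ = _ := by rw [← pow_mul, mul_comm]
        have h7 : 64 * (u : ℝ) ^ 3 ≤ 2 ^ (3 * u) := by exact_mod_cast h6
        have h8 : (2 : ℝ) ^ (3 * u) * (2 ^ u * (1 / 2) ^ (4 * u)) = 1 := by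
          rw [← mul_assoc, ← pow_add, show 3 * u + u = 4 * u by ring, ← mul_pow]; norm_num
        have := mul_le_mul_of_nonneg_right h7
          (by positivity : (0 : ℝ) ≤ 2 ^ u * (1 / 2) ^ (4 * u))
        rw [h8] at this
        rw [e]; push_cast
        linarith
      · calc ∑ S ∈ 𝒮, h S * w S (S ∩ V)
            ≤ ∑ S ∈ 𝒮, h S * P ^ #(S \ (S ∩ V)) := sum_le_sum fun S _ =>
              mul_le_mul_of_nonneg_left
                (wt_pow_le hh hd (hdP ▸ le_rfl) hP1 η R (k + 1) inter_subset_left) (hh S)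
          _ = ∑ A ∈ V.powerset, ∑ S ∈ 𝒮.filter (fun S => S ∩ V = A), h S * P ^ #(S \ (S ∩ V)) :=
              (sum_fiberwise_of_maps_to (fun S _ => mem_powerset.2 inter_subset_right) _).symm
          _ ≤ ∑ A ∈ V.powerset, η (k + 1) := by
              refine sum_le_sum fun A _ => ?_
              rcases (𝒮.filter fun S => S ∩ V = A).eq_empty_or_nonempty with he | ⟨S₀, hS₀⟩
              · rw [he, sum_empty]; exact pow_nonneg (by norm_num) _
              obtain ⟨hS₀, hA₀⟩ := mem_filter.1 hS₀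
              obtain ⟨x, hx, hxn⟩ := hbad S₀ hS₀
              rw [hA₀] at hx hxn
              refine le_trans ?_ (not_le.1 hxn).le
              calc ∑ S ∈ 𝒮.filter (fun S => S ∩ V = A), h S * P ^ #(S \ (S ∩ V))
                  = ∑ S ∈ 𝒮.filter (fun S => S ∩ V = A), h S * P ^ #(S \ A) :=
                    sum_congr rfl fun S hS => by rw [(mem_filter.1 hS).2]
                _ ≤ nu h P A x := sum_le_sum_of_subset_of_nonneg
                    (fun S hS => mem_filter.2 ⟨mem_univ S,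
                      (mem_inter.1 ((mem_filter.1 hS).2.symm ▸ hx)).1⟩)
                    fun S _ _ => mul_nonneg (hh S) (pow_nonneg hP0 _)
          _ = 2 ^ #V * η (k + 1) := by
              rw [sum_const, card_powerset, nsmul_eq_mul]; push_cast; ring
          _ ≤ 2 ^ u * η (k + 1) := mul_le_mul_of_nonneg_right
              (pow_le_pow_right₀ one_le_two hVc'.1) (pow_nonneg (by norm_num) _)
          _ = 8 * 2 ^ u * η (k + 1) * (1 / 8) := by ring
          _ ≤ _ := mul_le_mul_of_nonneg_left (hθ.trans hVc'.2.1)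
              (mul_nonneg (by positivity) (pow_nonneg (by norm_num) _))
      · symm
        refine sum_subset (fun T hT => mem_powerset.2 (mem_filter.1 hT).2) fun T hT hT' => ?_
        refine gen_eq_zero (fun hh' => hT' ?_) K ∅
        simp only [C, mem_filter, mem_univ, true_and]
        exact ⟨hh', mem_powerset.1 hT⟩
    have hw' : ∑ V ∈ 𝒱, (d / 4) ^ #V ≤ 2 ^ ((12 * t + 2) * (K + 1)) := by
      refine (sum_le_sum fun V _ => pow_le_pow_left₀ hd4 (by linarith : d / 4 ≤ d) _).trans ?_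
      refine (sum_le_sum_of_subset_of_nonneg (filter_subset _ _)
        fun V _ _ => pow_nonneg hd _).trans
          ((cores_weight hh hD hd hdP hP1 R (k + 1) hθ0 hu1).trans ?_)
      have h1 : ∑ j ∈ range (K + 1), ((64 : ℝ) ^ (2 * t)) ^ j ≤
          (K + 1 : ℕ) * 2 ^ (12 * t * K) := by
        refine (sum_le_card_nsmul _ _ _ fun j hj => ?_).trans_eq
          (by rw [card_range, nsmul_eq_mul])
        rw [show (64 : ℝ) = 2 ^ 6 by norm_num, ← pow_mul, ← pow_mul,
          show 6 * (2 * t * j) = 12 * t * j by ring]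
        exact pow_le_pow_right₀ one_le_two
          (Nat.mul_le_mul_left _ (Nat.lt_succ_iff.1 (mem_range.1 hj)))
      have h2 : ((K + 1 : ℕ) : ℝ) ≤ 2 ^ (K + 1) := by
        exact_mod_cast (Nat.lt_two_pow_self).le
      calc 4 * ∑ j ∈ range (K + 1), ((64 : ℝ) ^ (2 * t)) ^ j
          ≤ 4 * (2 ^ (K + 1) * 2 ^ (12 * t * K)) := by
            refine mul_le_mul_of_nonneg_left (h1.trans ?_) (by norm_num)
            exact mul_le_mul_of_nonneg_right h2 (by positivity)
        _ = (2 : ℝ) ^ (2 + (K + 1) + 12 * t * K) := by ring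
        _ ≤ 2 ^ ((12 * t + 2) * (K + 1)) := pow_le_pow_right₀ one_le_two (by
            have : 1 ≤ K := Nat.one_le_iff_ne_zero.2 (by positivity)
            rw [add_mul, mul_add]; omega)
    have hexp : ∀ V ∈ 𝒱,
        Real.exp (-(8 * (N : ℝ) * ∑ T ∈ C.filter (· ⊆ V), G T)) ≤ (1 / 2) ^ N := fun V hV =>
      calc Real.exp (-(8 * (N : ℝ) * ∑ T ∈ C.filter (· ⊆ V), G T))
          ≤ Real.exp (N * (-2)) := Real.exp_le_exp.2 (by
            have := mul_le_mul_of_nonneg_left (hm V hV) (by positivity : (0 : ℝ) ≤ 8 * N)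
            linarith)
        _ = Real.exp (-2) ^ N := Real.exp_nat_mul _ _
        _ ≤ (1 / 2) ^ N := by
            refine pow_le_pow_left₀ (Real.exp_pos _).le ?_ _
            rw [Real.exp_neg, one_div]
            exact inv_anti₀ two_pos (by linarith [Real.add_one_le_exp (2 : ℝ)])
    have hsum2 : ∑ V ∈ 𝒱, (d / 4) ^ #V * Real.exp (-(8 * (N : ℝ) * ∑ T ∈ C.filter (· ⊆ V), G T)) ≤
        (1 / 2) ^ lvl t k :=
      calc _ ≤ ∑ V ∈ 𝒱, (d / 4) ^ #V * (1 / 2) ^ N :=
            sum_le_sum fun V hV => mul_le_mul_of_nonneg_left (hexp V hV) (pow_nonneg hd4 _)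
        _ ≤ 2 ^ ((12 * t + 2) * (K + 1)) * (1 / 2) ^ N := by
            rw [← sum_mul]; exact mul_le_mul_of_nonneg_right hw' (by positivity)
        _ = (1 / 2) ^ lvl t k := by
            rw [hN, pow_add, ← mul_assoc, ← mul_pow]; norm_num
    have hsumC : ∑ T ∈ C, G T * (d / 4) ^ #T ≤ (1 / 2) ^ lvl t k * (2 * (u : ℝ) ^ 3) :=
      (sum_le_sum_of_subset_of_nonneg (subset_univ _) fun T _ _ =>
        mul_nonneg (hG T) (pow_nonneg hd4 _)).trans hGc
    have hN' : (N : ℝ) ≤ 4 * (u : ℝ) ^ 4 := by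
      rw [hN, hK]
      exact N_le (D := 12 * t) hu1 (by omega) (by omega)
    have hu7 : 1 ≤ (u : ℝ) ^ 7 := one_le_pow₀ (by exact_mod_cast hu1)
    calc 8 * (N : ℝ) * ∑ T ∈ C, G T * (d / 4) ^ #T +
          ∑ V ∈ 𝒱, (d / 4) ^ #V * Real.exp (-(8 * (N : ℝ) * ∑ T ∈ C.filter (· ⊆ V), G T))
        ≤ 8 * (4 * (u : ℝ) ^ 4) * ((1 / 2) ^ lvl t k * (2 * (u : ℝ) ^ 3)) +
            (1 / 2) ^ lvl t k := by
          refine add_le_add (mul_le_mul (by linarith) hsumC
            (sum_nonneg fun T _ => mul_nonneg (hG T) (pow_nonneg hd4 _)) (by positivity)) hsum2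
      _ ≤ _ := by
          nlinarith [mul_le_mul_of_nonneg_right hu7
            (by positivity : (0 : ℝ) ≤ (1 / 2) ^ lvl t k)]
  · by_cases hcov : ∀ T ∈ S, ¬ T ⊆ V
    · exact ⟨V, mem_union_right _ (mem_filter.2 ⟨mem_filter.2 ⟨hV, by omega,
        fun W hW hWs => hok' W hW (by omega)⟩, hcov⟩), Subset.rfl⟩
    · push Not at hcov
      obtain ⟨T, hT, hTV⟩ := hcov
      exact ⟨T, mem_union_left _ hT, hTV⟩

open Classical in
/-- One round: from witnesses of size `lvl (k + 1)` to witnesses of size `lvl k`. -/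
lemma round (hh : ∀ S, 0 ≤ h S) (hD : ∀ S, h S ≠ 0 → #S ≤ 2 * t) (ht : 1 ≤ t) (hd : 0 ≤ d)
    (hdP : P = 18 * d) (hP1 : P ≤ 1) {R k : ℕ} (hk : k < R) {θ : ℝ} (hθ : 1 / 4 ≤ θ)
    (hθ1 : θ ≤ 1) :
    ∃ 𝒢 : Finset (Finset X), ∅ ∉ 𝒢 ∧
      cost (d / 4) 𝒢 ≤ (1 / 2) ^ (4 * t) / (lvl t (k + 1) : ℝ) ∧
      ∀ W, #W ≤ lvl t (k + 1) → θ ≤ phi h P (eta t) d R (k + 1) W → (∃ T ∈ 𝒢, T ⊆ W) ∨
        ∃ W' ⊆ W, #W' ≤ lvl t k ∧ θ - 3 / (lvl t (k + 1) : ℝ) ≤ phi h P (eta t) d R k W' := by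
  obtain ⟨hk1, -, hk3⟩ := lvl_facts ht k
  set u := lvl t (k + 1) with hu
  have hu1 : 1 ≤ u := by omega
  have hu' : (2 : ℝ) ≤ u := by exact_mod_cast (by omega : 2 ≤ u)
  set a : ℕ → ℝ := fun j => θ * (1 - 1 / (u : ℝ) ^ 2) ^ j
  have ha : ∀ j ≤ u, 1 / 8 ≤ a j ∧ θ - 1 / u ≤ a j ∧ a j ≤ 1 := fun j hj => by
    obtain ⟨h1, h2⟩ := theta_pos_bounds (by linarith : 0 ≤ θ) hu1 hj
    have h3 : (1 : ℝ) / u ≤ 1 / 2 := one_div_le_one_div_of_le two_pos hu'
    refine ⟨le_trans ?_ h1, ?_, h2.trans hθ1⟩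
    · calc (1 : ℝ) / 8 = 1 / 4 * (1 / 2) := by norm_num
        _ ≤ θ * (1 - 1 / u) := mul_le_mul hθ (by linarith) (by norm_num) (by linarith)
    · refine le_trans ?_ h1
      have := mul_le_mul_of_nonneg_right hθ1 (by positivity : (0 : ℝ) ≤ 1 / u)
      linarith
  set ρ : ℝ := 1 - 2 / u
  have hρ0 : 0 ≤ ρ := by
    have : (2 : ℝ) / u ≤ 1 := (div_le_one (by linarith)).2 hu'
    linarith
  have hρ1 : ρ ≤ 1 := sub_le_self _ (by positivity)
  have hlev : ∀ j : ℕ, ∃ 𝒢 : Finset (Finset X), j ≤ u → ∅ ∉ 𝒢 ∧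
      cost (d / 4) 𝒢 ≤ 65 * (u : ℝ) ^ 7 * (1 / 2) ^ lvl t k ∧
      ∀ V ∈ cores (phi h P (eta t) d R (k + 1)) u (a j), lvl t k < #V →
        (∀ W ⊆ V, #W ≤ lvl t k → phi h P (eta t) d R k W ≤ ρ * a j) → ∃ T ∈ 𝒢, T ⊆ V := fun j => by
    by_cases hj : j ≤ u
    · obtain ⟨𝒢, h'⟩ := level hh hD ht hd hdP hP1 hk (ha j hj).1 (ha j hj).2.2 hρ0 hρ1
      exact ⟨𝒢, fun _ => h'⟩
    · exact ⟨∅, fun h' => absurd h' hj⟩
  choose A hA using hlev
  refine ⟨(range (u + 1)).biUnion A, ?_, ?_, fun W hW hθW => ?_⟩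
  · simp only [mem_biUnion, mem_range, not_exists, not_and]
    exact fun j hj => (hA j (by omega)).1
  · refine (cost_biUnion_le (by linarith) _ _).trans ?_
    refine (sum_le_card_nsmul _ _ _ fun j hj =>
      (hA j (Nat.lt_succ_iff.1 (mem_range.1 hj))).2.1).trans ?_
    rw [card_range, nsmul_eq_mul]
    have hpow : (2 : ℝ) ^ (4 * t + 8) * (u : ℝ) ^ 9 ≤ 2 ^ lvl t k := by
      rw [hu, show lvl t (k + 1) = 2 ^ (lvl t k / 16) from rfl]
      push_cast
      rw [← pow_mul, ← pow_add]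
      exact pow_le_pow_right₀ one_le_two (by omega)
    calc ((u + 1 : ℕ) : ℝ) * (65 * (u : ℝ) ^ 7 * (1 / 2) ^ lvl t k)
        ≤ 2 * u * (128 * (u : ℝ) ^ 7 * (1 / 2) ^ lvl t k) := by
          refine mul_le_mul (by push_cast; linarith) ?_ (by positivity) (by positivity)
          gcongr; norm_num
      _ = (1 / 2) ^ (4 * t) * ((1 / 2) ^ lvl t k * (2 ^ (4 * t + 8) * (u : ℝ) ^ 9)) / u := by
          have : (u : ℝ) ≠ 0 := by positivity
          have hcancel : ((1 : ℝ) / 2) ^ (4 * t) * 2 ^ (4 * t) = 1 := by rw [← mul_pow]; norm_num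
          rw [eq_div_iff this, pow_add,
            show ((1 : ℝ) / 2) ^ (4 * t) * ((1 / 2) ^ lvl t k * (2 ^ (4 * t) * 2 ^ 8 * (u : ℝ) ^ 9)) =
              ((1 / 2) ^ (4 * t) * 2 ^ (4 * t)) * ((1 / 2) ^ lvl t k * (2 ^ 8 * (u : ℝ) ^ 9)) by ring,
            hcancel]
          ring
      _ ≤ (1 / 2) ^ (4 * t) * 1 / u := by
          gcongr
          calc (1 / 2 : ℝ) ^ lvl t k * (2 ^ (4 * t + 8) * (u : ℝ) ^ 9)
              ≤ (1 / 2) ^ lvl t k * 2 ^ lvl t k :=
                mul_le_mul_of_nonneg_left hpow (by positivity)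
            _ = 1 := by rw [← mul_pow]; norm_num
      _ = _ := by rw [mul_one]
  · obtain ⟨j, hj, V, hVW, hV⟩ := exists_core W 0 (by omega) (by simpa using hθW)
    obtain ⟨a0, a1, a2⟩ := ha j hj
    have hVc := (mem_filter.1 hV).2
    have hW' : ∀ W' ⊆ V, #W' ≤ lvl t k → ρ * a j < phi h P (eta t) d R k W' →
        ∃ W' ⊆ W, #W' ≤ lvl t k ∧ θ - 3 / u ≤ phi h P (eta t) d R k W' := fun W' h1 h2 h3 => by
      refine ⟨W', h1.trans hVW, h2, le_trans ?_ h3.le⟩
      have := mul_le_mul_of_nonneg_left a2 (by positivity : (0 : ℝ) ≤ 2 / u)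
      have e : (3 : ℝ) / u = 1 / u + 2 / u := by ring
      linarith
    by_cases hok : ∀ W' ⊆ V, #W' ≤ lvl t k → phi h P (eta t) d R k W' ≤ ρ * a j
    · rcases le_or_gt (#V) (lvl t k) with hle | hgt
      · refine Or.inr (hW' V Subset.rfl hle (lt_of_lt_of_le ?_
          (hVc.2.1.trans (phi_anti hh hd hk V))))
        exact mul_lt_of_lt_one_left (by linarith) (sub_lt_self _ (by positivity))
      · obtain ⟨T, hT, hTV⟩ := (hA j hj).2.2 V hV hgt hok
        exact Or.inl ⟨T, mem_biUnion.2 ⟨j, mem_range.2 (by omega), hT⟩, hTV.trans hVW⟩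
    · push Not at hok
      obtain ⟨W', h1, h2, h3⟩ := hok
      exact Or.inr (hW' W' h1 h2 h3)

/-- The loss accumulated above level `k`. -/
noncomputable def loss (t : ℕ) : ℕ → ℝ
  | 0 => 0
  | k + 1 => loss t k + 1 / (lvl t (k + 1) : ℝ)

lemma loss_bounds (ht : 1 ≤ t) : ∀ k, 0 ≤ loss t k ∧
    loss t k ≤ 2 / (lvl t 0 : ℝ) - 2 / (lvl t k : ℝ) := by
  intro k
  induction k with
  | zero => simp [loss]
  | succ n ih =>
    obtain ⟨h1, -, h3⟩ := lvl_facts ht n
    have hpos : (0 : ℝ) < lvl t n := by exact_mod_cast (show 0 < lvl t n by omega)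
    have hle : 2 * (lvl t n : ℝ) ≤ lvl t (n + 1) := by
      exact_mod_cast (show 2 * lvl t n ≤ lvl t (n + 1) by omega)
    have hpos' : (0 : ℝ) < lvl t (n + 1) := by linarith
    refine ⟨add_nonneg ih.1 (by positivity), ?_⟩
    have key : 3 / (lvl t (n + 1) : ℝ) ≤ 2 / (lvl t n : ℝ) := by
      rw [div_le_div_iff₀ hpos' hpos]; linarith
    have e1 : (3 : ℝ) / (lvl t (n + 1) : ℝ) =
        1 / (lvl t (n + 1) : ℝ) + 2 / (lvl t (n + 1) : ℝ) := by ring
    rw [loss]
    linarith [ih.2]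

lemma loss_small (ht : 1 ≤ t) (k : ℕ) : loss t k ≤ 1 / 4 := by
  have h1 : (8 : ℝ) ≤ lvl t 0 := by
    exact_mod_cast (show 8 ≤ 512 * t by omega)
  have := div_le_div_of_nonneg_left (zero_le_two : (0 : ℝ) ≤ 2) (by norm_num) h1
  have : (0 : ℝ) ≤ 2 / (lvl t k : ℝ) := by positivity
  linarith [(loss_bounds ht k).2]

open Classical in
/-- The descent: witnesses at any level are covered cheaply. -/
theorem descend (hh : ∀ S, 0 ≤ h S) (hD : ∀ S, h S ≠ 0 → #S ≤ 2 * t) (ht : 1 ≤ t) (hd : 0 ≤ d)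
    (hdP : P = 18 * d) (hP1 : P ≤ 1) (hw : psi h P ∅ ≤ 2 * t * (1 / 2) ^ (128 * t)) (R : ℕ) :
    ∀ k ≤ R, ∀ θ : ℝ, 1 / 4 + 3 * loss t k ≤ θ → θ ≤ 1 →
      ∃ 𝒢 : Finset (Finset X), ∅ ∉ 𝒢 ∧ cost (d / 4) 𝒢 ≤ (1 / 2) ^ (4 * t) * (1 + loss t k) ∧
        ∀ W, #W ≤ lvl t k → θ ≤ phi h P (eta t) d R k W → ∃ T ∈ 𝒢, T ⊆ W := by
  intro k
  have hP0 : 0 ≤ P := by rw [hdP]; linarith
  induction k with
  | zero =>
    intro _ θ hθ _
    obtain ⟨𝒢, h0, hc, hcov⟩ := final (q := 17 * d) (θ := θ) hh ht hD hd (by linarith)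
      (P := P) (by linarith) hw (by simpa [loss] using hθ)
    exact ⟨𝒢, h0, hc.trans (by simp [loss]), fun W hW hθW =>
      hcov W hW (hθW.trans (phi_le_psi hh hP0 hP1 hd R 0 W))⟩
  | succ k ih =>
    intro hk θ hθ hθ1
    have e3 : (3 : ℝ) / (lvl t (k + 1) : ℝ) = 3 * (1 / (lvl t (k + 1) : ℝ)) := by ring
    have hpos : (0 : ℝ) ≤ 1 / (lvl t (k + 1) : ℝ) := by positivity
    have hl0 := (loss_bounds ht k).1
    rw [loss] at hθ
    obtain ⟨𝒢₁, h1, hc1, hcov1⟩ := round (R := R) (k := k) hh hD ht hd hdP hP1 (by omega)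
      (θ := θ) (by linarith) hθ1
    obtain ⟨𝒢₂, h2, hc2, hcov2⟩ := ih (by omega) (θ - 3 / (lvl t (k + 1) : ℝ))
      (by linarith) (by linarith)
    refine ⟨𝒢₁ ∪ 𝒢₂, by simp [h1, h2], ?_, fun W hW hθW => ?_⟩
    · refine (cost_union_le (by linarith) _ _).trans ((add_le_add hc1 hc2).trans (le_of_eq ?_))
      rw [loss]; ring
    · rcases hcov1 W hW hθW with ⟨T, hT, hTW⟩ | ⟨W', hW', hc', hθ'⟩
      · exact ⟨T, mem_union_left _ hT, hTW⟩
      · obtain ⟨T, hT, hTW⟩ := hcov2 W' hc' hθ'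
        exact ⟨T, mem_union_right _ hT, hTW.trans hW'⟩

end Vale.Agent.P034.Full
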